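import Mathlib

/-!
# Cocycle accounting, measure part (Section 3.1 of the P109 blueprint)

Abstract: a family `Sm m : Ω → ℝ` (bounded, measurable, nonnegative, `Sm 1 = 0`) with
`Sm (2m) x ≤ Sm m x + Sm m (S^m x) + C0`.  The overlap
`Sm m x + Sm m (S^m x) - Sm (2m) x` has a bounded sum over the dyadic scales, after division by
`2m`; hence at all but boundedly many levels the points are good except for a tiny set.
-/

namespace P109.R476

open MeasureTheory Function

/-! ### A finite summability argument -/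

/-- If all finite partial sums of a nonnegative sequence are at most `C0`, then the indices with
`g j > θ` form a finite set of cardinality at most `C0 / θ`. -/
theorem exists_bad (g : ℕ → ℝ) (C0 θ : ℝ) (hθ : 0 < θ) (hg : ∀ j, 0 ≤ g j)
    (hsum : ∀ J, ∑ j ∈ Finset.range J, g j ≤ C0) :
    ∃ Bad : Finset ℕ, (Bad.card : ℝ) ≤ C0 / θ ∧ ∀ j, j ∉ Bad → g j ≤ θ := by
  classical
  have hfin : ∀ T : Finset ℕ, (∀ j ∈ T, θ < g j) → (T.card : ℝ) ≤ C0 / θ := by
    intro T hT
    rw [le_div_iff₀ hθ]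
    obtain ⟨J, hJ⟩ : ∃ J, T ⊆ Finset.range J := T.exists_nat_subset_range
    calc (T.card : ℝ) * θ = ∑ j ∈ T, θ := by rw [Finset.sum_const, nsmul_eq_mul]
      _ ≤ ∑ j ∈ T, g j := Finset.sum_le_sum fun j hj => (hT j hj).le
      _ ≤ ∑ j ∈ Finset.range J, g j :=
          Finset.sum_le_sum_of_subset_of_nonneg hJ fun j _ _ => hg j
      _ ≤ C0 := hsum J
  have hsetfin : {j | θ < g j}.Finite := by
    by_contra hinf
    obtain ⟨N, hN⟩ := exists_nat_gt (C0 / θ)
    obtain ⟨T, hTs, hTc⟩ := Set.Infinite.exists_subset_card_eq hinf N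
    have := hfin T fun j hj => hTs hj
    rw [hTc] at this
    linarith
  refine ⟨hsetfin.toFinset, hfin _ fun j hj => by simpa using hj, fun j hj => ?_⟩
  by_contra hcon
  exact hj (by simpa using hcon)

/-! ### Disjoint translates -/

section Translates

variable {Ω : Type*} [MeasurableSpace Ω] {ν : Measure Ω}

theorem sum_inter_le (S : Ω ≃ᵐ Ω) (hS : MeasurePreserving S ν ν) {n : ℕ} {Z U : Set Ω}
    (hZ : MeasurableSet Z) (hU : MeasurableSet U)
    (hdisj : (Finset.range n : Set ℕ).PairwiseDisjoint fun i => S^[i] '' Z) :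
    ∑ s ∈ Finset.range n, ν (Z ∩ S^[s] ⁻¹' U) ≤ ν U := by
  have hinj : ∀ s, Injective (S^[s]) := fun s => S.injective.iterate s
  have hmeas : ∀ s, Measurable (S^[s]) := fun s => S.measurable.iterate s
  have himg : ∀ s (A : Set Ω), MeasurableSet A → MeasurableSet (S^[s] '' A) := by
    intro s
    induction s with
    | zero => intro A hA; simpa using hA
    | succ s ih =>
      intro A hA
      rw [Function.iterate_succ, Set.image_comp]
      exact ih _ ((MeasurableEquiv.measurableSet_image S).2 hA)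
  have h1 : ∀ s, ν (Z ∩ S^[s] ⁻¹' U) = ν (S^[s] '' Z ∩ U) := by
    intro s
    have h2 : Z ∩ S^[s] ⁻¹' U = S^[s] ⁻¹' (S^[s] '' Z ∩ U) := by
      rw [Set.preimage_inter, Set.preimage_image_eq _ (hinj s)]
    rw [h2]
    exact (hS.iterate s).measure_preimage ((himg s Z hZ).inter hU).nullMeasurableSet
  calc ∑ s ∈ Finset.range n, ν (Z ∩ S^[s] ⁻¹' U)
      = ∑ s ∈ Finset.range n, ν (S^[s] '' Z ∩ U) := Finset.sum_congr rfl fun s _ => h1 s
    _ = ν (⋃ s ∈ Finset.range n, (S^[s] '' Z ∩ U)) := by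
        rw [measure_biUnion_finset]
        · intro i hi j hj hij
          exact (hdisj hi hj hij).mono Set.inter_subset_left Set.inter_subset_left
        · intro s _
          exact (himg s Z hZ).inter hU
    _ ≤ ν U := measure_mono (by
        intro x hx
        simp only [Set.mem_iUnion] at hx
        obtain ⟨s, _, hx⟩ := hx
        exact hx.2)

/-- The bad part of a set with `n` disjoint translates: if every point of `Z \ G` visits `U` at
least `u + 1` times during `[0, 2n)`, then `(u+1) ν (Z \ G) ≤ 2 ν U`. -/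
theorem measure_bad_le (S : Ω ≃ᵐ Ω) (hS : MeasurePreserving S ν ν) {n u : ℕ}
    {Z G U : Set Ω} (hZ : MeasurableSet Z) (hG : MeasurableSet G) (hU : MeasurableSet U)
    (hdisj : (Finset.range n : Set ℕ).PairwiseDisjoint fun i => S^[i] '' Z)
    (hbad : ∀ x ∉ G, ∃ a, a + u < 2 * n ∧ ∀ i ≤ u, S^[a + i] x ∈ U) :
    ((u : ENNReal) + 1) * ν (Z \ G) ≤ 2 * ν U := by
  classical
  have hmeas : ∀ s, Measurable (S^[s]) := fun s => S.measurable.iterate s
  have h1 : ((u : ENNReal) + 1) * ν (Z \ G) ≤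
      ∑ s ∈ Finset.range (2 * n), ν (Z ∩ S^[s] ⁻¹' U) := by
    have h2 : ∀ s, ν (Z ∩ S^[s] ⁻¹' U) = ∫⁻ x, (Z ∩ S^[s] ⁻¹' U).indicator 1 x ∂ν := by
      intro s
      rw [lintegral_indicator_one (hZ.inter (hmeas s hU))]
    have h3 : ((u : ENNReal) + 1) * ν (Z \ G) =
        ∫⁻ x, (Z \ G).indicator (fun _ => (u : ENNReal) + 1) x ∂ν := by
      rw [lintegral_indicator_const (hZ.diff hG)]
    rw [h3]
    simp_rw [h2]
    rw [← lintegral_finsetSum]
    · apply lintegral_mono
      intro x
      by_cases hx : x ∈ Z \ G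
      · obtain ⟨a, ha, hau⟩ := hbad x hx.2
        simp only [Set.indicator_of_mem hx]
        calc ((u : ENNReal) + 1) = ∑ i ∈ Finset.range (u + 1), (1 : ENNReal) := by simp
          _ = ∑ i ∈ Finset.range (u + 1), (Z ∩ S^[a + i] ⁻¹' U).indicator 1 x := by
              apply Finset.sum_congr rfl
              intro i hi
              have hi' : i ≤ u := by
                have := Finset.mem_range.1 hi
                omega
              rw [Set.indicator_of_mem]
              · rfl
              · exact ⟨hx.1, hau i hi'⟩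
          _ = ∑ s ∈ (Finset.range (u + 1)).map (addLeftEmbedding a),
                (Z ∩ S^[s] ⁻¹' U).indicator 1 x := by
              rw [Finset.sum_map]
              rfl
          _ ≤ ∑ s ∈ Finset.range (2 * n), (Z ∩ S^[s] ⁻¹' U).indicator 1 x := by
              apply Finset.sum_le_sum_of_subset
              intro s hs
              simp only [Finset.mem_map, Finset.mem_range, addLeftEmbedding_apply] at hs ⊢
              obtain ⟨i, hi, rfl⟩ := hs
              omega
      · simp [Set.indicator_of_notMem hx]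
    · intro s _
      exact measurable_one.indicator (hZ.inter (hmeas s hU))
  have h4 : ∑ s ∈ Finset.range (2 * n), ν (Z ∩ S^[s] ⁻¹' U) ≤ 2 * ν U := by
    rw [two_mul, Finset.sum_range_add, two_mul]
    apply add_le_add
    · exact sum_inter_le S hS hZ hU hdisj
    · have hU1 : MeasurableSet (S^[n] ⁻¹' U) := hmeas n hU
      have h5 : ∀ s, Z ∩ S^[n + s] ⁻¹' U = Z ∩ S^[s] ⁻¹' (S^[n] ⁻¹' U) := by
        intro s
        rw [Function.iterate_add]
        rfl
      calc ∑ s ∈ Finset.range n, ν (Z ∩ S^[n + s] ⁻¹' U)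
          = ∑ s ∈ Finset.range n, ν (Z ∩ S^[s] ⁻¹' (S^[n] ⁻¹' U)) :=
            Finset.sum_congr rfl fun s _ => by rw [h5]
        _ ≤ ν (S^[n] ⁻¹' U) := sum_inter_le S hS hZ hU1 hdisj
        _ = ν U := (hS.iterate n).measure_preimage hU.nullMeasurableSet
  exact h1.trans h4

end Translates

/-! ### The accounting theorem -/

section Main

universe u

/-- **Cocycle accounting, measure part.** -/
theorem accounting_abstract {Ω : Type u} [MeasurableSpace Ω] (ν : Measure Ω)
    [IsProbabilityMeasure ν] (S : Ω ≃ᵐ Ω) (hS : MeasurePreserving S ν ν)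
    (C0 Lam : ℝ) (hC0 : 0 ≤ C0) (hLam : 1 ≤ Lam)
    (Sm : ℕ → Ω → ℝ) (GoodAt : ℕ → ℝ → Ω → Prop)
    (h1m : ∀ m, Measurable (Sm m)) (h1b : ∀ m, ∃ b, ∀ x, |Sm m x| ≤ b)
    (h1n : ∀ m x, 0 ≤ Sm m x) (h1one : ∀ x, Sm 1 x = 0)
    (h2 : ∀ m, 1 ≤ m → ∀ x, -C0 ≤ Sm m x + Sm m (S^[m] x) - Sm (2 * m) x)
    (h3 : ∀ m, 1 ≤ m → ∀ x a, Sm m x + Sm m (S^[m] x) - Sm (2 * m) x ≤ a →
      GoodAt m (Real.exp (a + C0)) (S^[m] x))
    (h4 : ∀ m u K x, u ≤ m → GoodAt (2 * m) K (S^[u] x) →
      GoodAt m (K * (1 + u * Lam ^ (2 * u)) * Lam ^ u) x)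
    (h5 : ∀ m K K' x, K ≤ K' → GoodAt m K x → GoodAt m K' x)
    (ρ ε : ℝ) (hρ : 0 < ρ) (hρ1 : ρ ≤ 1) (hε : 0 < ε) :
    ∃ Bad : Finset ℕ,
      (Bad.card : ℝ) ≤ 5120000 * C0 * (1 + 3 * Real.log Lam) / (ε * ρ ^ 2) ∧
      ∀ j, j ∉ Bad → 400 * C0 ≤ ρ * 2 ^ (j + 1) →
        ∃ G : Set Ω, MeasurableSet G ∧
          (∀ x ∈ G, ∀ τ ≤ 2 ^ (j + 1),
            GoodAt (2 ^ (j + 1)) (Real.exp (ρ * 2 ^ (j + 1) / 200)) (S^[τ] x)) ∧
          ∀ Z : Set Ω, MeasurableSet Z →
            ((Finset.range (2 ^ (j + 1)) : Set ℕ).PairwiseDisjoint fun i => S^[i] '' Z) →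
            (2 : ℝ) ^ (j + 1) * ν.real (Z \ G) ≤ ε := by
  classical
  have hℓ : 0 ≤ Real.log Lam := Real.log_nonneg hLam
  have hLam0 : 0 < Lam := lt_of_lt_of_le one_pos hLam
  -- overlap
  set ov : ℕ → Ω → ℝ := fun m x => Sm m x + Sm m (S^[m] x) - Sm (2 * m) x with hov
  have hSmeas : ∀ s, Measurable (S^[s]) := fun s => S.measurable.iterate s
  have hint : ∀ m, Integrable (Sm m) ν := by
    intro m
    obtain ⟨b, hb⟩ := h1b m
    exact Integrable.of_bound (h1m m).aestronglyMeasurable b
      (Filter.Eventually.of_forall fun x => by rw [Real.norm_eq_abs]; exact hb x)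
  have hint2 : ∀ m, Integrable (fun x => Sm m (S^[m] x)) ν := by
    intro m
    obtain ⟨b, hb⟩ := h1b m
    exact Integrable.of_bound ((h1m m).comp (hSmeas m)).aestronglyMeasurable b
      (Filter.Eventually.of_forall fun x => by rw [Real.norm_eq_abs]; exact hb _)
  set F : ℕ → ℝ := fun m => ∫ x, Sm m x ∂ν with hF
  have hF2 : ∀ m, ∫ x, Sm m (S^[m] x) ∂ν = F m := by
    intro m
    have hmp := hS.iterate m
    have := integral_map (μ := ν) (φ := S^[m]) (hSmeas m).aemeasurable
      (f := Sm m) (by rw [hmp.map_eq]; exact (h1m m).aestronglyMeasurable)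
    rw [hmp.map_eq] at this
    exact this.symm
  have hovint : ∀ m, Integrable (ov m) ν := fun m => ((hint m).add (hint2 m)).sub (hint (2 * m))
  have hovI : ∀ m, ∫ x, ov m x ∂ν = 2 * F m - F (2 * m) := by
    intro m
    have e1 : ∫ x, ov m x ∂ν = ∫ x, (Sm m x + Sm m (S^[m] x)) ∂ν - F (2 * m) :=
      integral_sub ((hint m).add (hint2 m)) (hint (2 * m))
    have e2 : ∫ x, (Sm m x + Sm m (S^[m] x)) ∂ν = F m + ∫ x, Sm m (S^[m] x) ∂ν :=
      integral_add (hint m) (hint2 m)
    rw [e1, e2, hF2 m]; ring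
  have hF0 : ∀ m, 0 ≤ F m := fun m => integral_nonneg (h1n m)
  have hF1 : F 1 = 0 := by
    rw [hF]; simp [h1one]
  -- the dyadic sequence
  set g : ℕ → ℝ := fun j => (∫ x, (ov (2 ^ j) x + C0) ∂ν) / 2 ^ (j + 1) with hg
  have hgI : ∀ j, ∫ x, (ov (2 ^ j) x + C0) ∂ν = 2 * F (2 ^ j) - F (2 ^ (j + 1)) + C0 := by
    intro j
    rw [integral_add (hovint _) (integrable_const _), hovI, pow_succ' 2 j]
    simp
  have hg0 : ∀ j, 0 ≤ g j := by
    intro j
    apply div_nonneg _ (by positivity)
    apply integral_nonneg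
    intro x
    have := h2 (2 ^ j) (Nat.one_le_two_pow) x
    simp only [hov, Pi.zero_apply]
    linarith
  have hgsum : ∀ J, ∑ j ∈ Finset.range J, g j ≤ C0 - F (2 ^ J) / 2 ^ J - C0 / 2 ^ J := by
    intro J
    induction J with
    | zero => simp [hF1]
    | succ J ih =>
      rw [Finset.sum_range_succ]
      have e1 : g J = F (2 ^ J) / 2 ^ J - F (2 ^ (J + 1)) / 2 ^ (J + 1) + C0 / 2 ^ (J + 1) := by
        rw [hg]
        simp only
        rw [hgI J, pow_succ (2 : ℝ) J]
        field_simp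
      have e2 : C0 / 2 ^ J = C0 / 2 ^ (J + 1) + C0 / 2 ^ (J + 1) := by
        rw [pow_succ (2 : ℝ) J]; field_simp; norm_num
      rw [e1]
      linarith
  have hgsum' : ∀ J, ∑ j ∈ Finset.range J, g j ≤ C0 := by
    intro J
    have h6 := hgsum J
    have h7 : 0 ≤ F (2 ^ J) / 2 ^ J := div_nonneg (hF0 _) (by positivity)
    have h8 : 0 ≤ C0 / 2 ^ J := by positivity
    linarith
  -- threshold
  set θ : ℝ := ε * ρ ^ 2 / (5120000 * (1 + 3 * Real.log Lam)) with hθ
  have hθ0 : 0 < θ := by positivity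
  obtain ⟨Bad0, hBadc, hBad⟩ := exists_bad g C0 θ hθ0 hg0 hgsum'
  -- shift by two
  refine ⟨(Bad0.filter (2 ≤ ·)).image (· - 2), ?_, ?_⟩
  · calc (((Bad0.filter (2 ≤ ·)).image (· - 2)).card : ℝ) ≤ (Bad0.card : ℝ) := by
          exact_mod_cast Finset.card_image_le.trans (Finset.card_filter_le _ _)
      _ ≤ C0 / θ := hBadc
      _ = 5120000 * C0 * (1 + 3 * Real.log Lam) / (ε * ρ ^ 2) := by
          rw [hθ]; field_simp
  · intro j hj hjn
    have hj2 : g (j + 2) ≤ θ := by
      apply hBad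
      intro hcon
      apply hj
      rw [Finset.mem_image]
      exact ⟨j + 2, by simp [hcon], by simp⟩
    set n : ℕ := 2 ^ (j + 1) with hn
    have hn1 : 1 ≤ n := Nat.one_le_two_pow
    have hnR : (n : ℝ) = 2 ^ (j + 1) := by rw [hn]; push_cast; ring
    have hnpos : (0 : ℝ) < n := by exact_mod_cast hn1
    have hm : 2 ^ (j + 2) = 2 * n := by rw [hn]; ring
    rw [← hnR] at hjn ⊢
    -- parameters
    set ℓ := Real.log Lam with hℓd
    set c : ℝ := ρ * n / 800 with hc
    have hc0 : 0 < c := by positivity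
    set u : ℕ := ⌊ρ * n / (800 * (1 + 3 * ℓ))⌋₊ with hu
    have hu1 : (u : ℝ) ≤ ρ * n / (800 * (1 + 3 * ℓ)) := Nat.floor_le (by positivity)
    have hu2 : ρ * n / (800 * (1 + 3 * ℓ)) < u + 1 := Nat.lt_floor_add_one _
    have hun : u < n := by
      have : (u : ℝ) < n := by
        calc (u : ℝ) ≤ ρ * n / (800 * (1 + 3 * ℓ)) := hu1
          _ ≤ 1 * n / (800 * (1 + 3 * 0)) := by
              apply div_le_div₀ (by positivity) _ (by norm_num)
              · nlinarith
              · exact mul_le_mul_of_nonneg_right hρ1 hnpos.le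
          _ < n := by linarith
      exact_mod_cast this
    -- the bad set
    set U' : Set Ω := {x | c < ov (2 * n) x} with hU'
    have hovmeas : Measurable (ov (2 * n)) :=
      ((h1m _).add ((h1m _).comp (hSmeas _))).sub (h1m _)
    have hU'm : MeasurableSet U' := measurableSet_lt measurable_const hovmeas
    set U : Set Ω := S.symm^[2 * n] ⁻¹' U' with hUd
    have hSsm : ∀ s, Measurable (S.symm^[s]) := fun s => S.symm.measurable.iterate s
    have hUm : MeasurableSet U := hSsm _ hU'm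
    have hsymm : MeasurePreserving S.symm ν ν := hS.symm S
    have hνU : ν U = ν U' := (hsymm.iterate (2 * n)).measure_preimage hU'm.nullMeasurableSet
    have hmarkov : ν.real U' * (c + C0) ≤ 2 * (2 * n) * θ := by
      have e1 : (c + C0) * ν.real {x | c + C0 ≤ ov (2 * n) x + C0} ≤
          ∫ x, (ov (2 * n) x + C0) ∂ν := by
        apply mul_meas_ge_le_integral_of_nonneg
        · refine Filter.Eventually.of_forall fun x => ?_
          have := h2 (2 * n) (by omega) x
          simp only [hov, Pi.zero_apply]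
          linarith
        · exact (hovint _).add (integrable_const _)
      have e2 : ν.real U' ≤ ν.real {x | c + C0 ≤ ov (2 * n) x + C0} := by
        apply measureReal_mono _ (measure_ne_top _ _)
        intro x hx
        have : c < ov (2 * n) x := hx
        show c + C0 ≤ ov (2 * n) x + C0
        linarith
      have e3 : ∫ x, (ov (2 * n) x + C0) ∂ν ≤ 2 * (2 * n) * θ := by
        have e4 : g (j + 2) = (∫ x, (ov (2 * n) x + C0) ∂ν) / (2 * (2 * n)) := by
          rw [hg]; simp only
          rw [hm]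
          congr 1
          rw [hnR]; ring
        rw [e4, div_le_iff₀ (by positivity)] at hj2
        linarith
      calc ν.real U' * (c + C0) ≤ ν.real {x | c + C0 ≤ ov (2 * n) x + C0} * (c + C0) :=
            mul_le_mul_of_nonneg_right e2 (by positivity)
        _ = (c + C0) * ν.real {x | c + C0 ≤ ov (2 * n) x + C0} := mul_comm _ _
        _ ≤ _ := e1.trans e3
    -- the good set
    set G : Set Ω := {x | ∀ τ ≤ n, ∃ i ≤ u, S^[τ + i] x ∉ U} with hG
    have hGm : MeasurableSet G := by
      have : G = ⋂ τ ∈ Finset.range (n + 1), ⋃ i ∈ Finset.range (u + 1), S^[τ + i] ⁻¹' Uᶜ := by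
        ext x
        simp only [hG, Set.mem_ofPred_eq, Set.mem_iInter, Set.mem_iUnion, Finset.mem_range,
          Set.mem_preimage, Set.mem_compl_iff, Nat.lt_succ_iff, exists_prop]
      rw [this]
      refine Finset.measurableSet_biInter _ fun τ _ => Finset.measurableSet_biUnion _ fun i _ => ?_
      exact hSmeas _ hUm.compl
    refine ⟨G, hGm, ?_, ?_⟩
    · intro x hx τ hτ
      obtain ⟨i, hi, hxi⟩ := hx τ hτ
      -- good at time τ + i with window 2n
      set y := S^[τ + i] x with hy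
      have hy' : S^[2 * n] (S.symm^[2 * n] y) = y := by
        have hli : RightInverse S.symm S := fun z => S.apply_symm_apply z
        exact (hli.iterate (2 * n)) y
      have hov1 : ov (2 * n) (S.symm^[2 * n] y) ≤ c := by
        by_contra hcon
        push Not at hcon
        exact hxi hcon
      have hgood := h3 (2 * n) (by omega) _ c hov1
      rw [hy'] at hgood
      have hgood2 : GoodAt (2 * n) (Real.exp (c + C0)) (S^[i] (S^[τ] x)) := by
        rw [← Function.iterate_add_apply, add_comm i τ]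
        exact hgood
      have hgood3 := h4 n i _ _ (hi.trans hun.le) hgood2
      refine h5 n _ _ _ ?_ hgood3
      -- numeric bound
      have hi' : (i : ℝ) ≤ u := by exact_mod_cast hi
      have hpow : ∀ k : ℕ, Lam ^ k = Real.exp (k * ℓ) := by
        intro k
        rw [Real.exp_nat_mul, hℓd, Real.exp_log hLam0]
      have e1 : (1 + (i : ℝ) * Lam ^ (2 * i)) ≤ Real.exp (i + 2 * i * ℓ) := by
        have h1' : (1 : ℝ) ≤ Lam ^ (2 * i) := one_le_pow₀ hLam
        have h2' : (i : ℝ) + 1 ≤ Real.exp i := Real.add_one_le_exp _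
        calc (1 + (i : ℝ) * Lam ^ (2 * i)) ≤ Lam ^ (2 * i) + i * Lam ^ (2 * i) := by linarith
          _ = (i + 1) * Lam ^ (2 * i) := by ring
          _ ≤ Real.exp i * Lam ^ (2 * i) := mul_le_mul_of_nonneg_right h2' (by positivity)
          _ = Real.exp (i + 2 * i * ℓ) := by
              rw [hpow, ← Real.exp_add]; push_cast; ring_nf
      have e2 : Lam ^ i = Real.exp (i * ℓ) := hpow i
      calc Real.exp (c + C0) * (1 + (i : ℝ) * Lam ^ (2 * i)) * Lam ^ i
          ≤ Real.exp (c + C0) * Real.exp (i + 2 * i * ℓ) * Real.exp (i * ℓ) := by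
            rw [e2]
            gcongr
        _ = Real.exp (c + C0 + i * (1 + 3 * ℓ)) := by
            rw [← Real.exp_add, ← Real.exp_add]; ring_nf
        _ ≤ Real.exp (ρ * n / 200) := by
            apply Real.exp_le_exp.2
            have e3 : (i : ℝ) * (1 + 3 * ℓ) ≤ ρ * n / 800 := by
              calc (i : ℝ) * (1 + 3 * ℓ) ≤ (ρ * n / (800 * (1 + 3 * ℓ))) * (1 + 3 * ℓ) :=
                    mul_le_mul_of_nonneg_right (hi'.trans hu1) (by positivity)
                _ = ρ * n / 800 := by field_simp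
            have e4 : C0 ≤ ρ * n / 400 := by linarith
            rw [hc]
            linarith
    · intro Z hZ hdisj
      have hbad : ∀ x ∉ G, ∃ a, a + u < 2 * n ∧ ∀ i ≤ u, S^[a + i] x ∈ U := by
        intro x hx
        simp only [hG, Set.mem_ofPred_eq, not_forall, not_exists, not_and, not_not] at hx
        obtain ⟨τ, hτ, hx⟩ := hx
        exact ⟨τ, by omega, hx⟩
      have h6 := measure_bad_le S hS hZ hGm hUm hdisj hbad
      have h7 : ((u : ℝ) + 1) * ν.real (Z \ G) ≤ 2 * ν.real U' := by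
        have h8 := ENNReal.toReal_mono (by finiteness) h6
        rw [ENNReal.toReal_mul, ENNReal.toReal_mul, hνU] at h8
        simpa [measureReal_def, ENNReal.toReal_add] using h8
      have h8 : 0 ≤ ν.real (Z \ G) := measureReal_nonneg
      have h9 : 0 ≤ ν.real U' := measureReal_nonneg
      -- combine
      set x0 := ν.real (Z \ G)
      set y0 := ν.real U'
      have k1 : ρ * n / (800 * (1 + 3 * ℓ)) * x0 ≤ 2 * y0 :=
        (mul_le_mul_of_nonneg_right hu2.le h8).trans h7
      have k2 : y0 * (ρ * n / 800) ≤ 4 * n * θ := by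
        have : y0 * c ≤ y0 * (c + C0) := mul_le_mul_of_nonneg_left (by linarith) h9
        calc y0 * (ρ * n / 800) = y0 * c := by rw [hc]
          _ ≤ y0 * (c + C0) := this
          _ ≤ 2 * (2 * n) * θ := hmarkov
          _ = 4 * n * θ := by ring
      have k3 : y0 ≤ 3200 * θ / ρ := by
        rw [le_div_iff₀ hρ]
        have : (y0 * ρ) * (n / 800) ≤ (3200 * θ) * (n / 800) := by
          calc (y0 * ρ) * (n / 800) = y0 * (ρ * n / 800) := by ring
            _ ≤ 4 * n * θ := k2
            _ = (3200 * θ) * (n / 800) := by ring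
        exact le_of_mul_le_mul_right this (by positivity)
      have hpos : 0 < 1 + 3 * ℓ := by positivity
      have k4 : (n : ℝ) * x0 ≤ 1600 * (1 + 3 * ℓ) / ρ * y0 := by
        have : ρ / (800 * (1 + 3 * ℓ)) * (n * x0) ≤ 2 * y0 := by
          calc ρ / (800 * (1 + 3 * ℓ)) * (n * x0) = ρ * n / (800 * (1 + 3 * ℓ)) * x0 := by ring
            _ ≤ 2 * y0 := k1
        have h10 : 0 < 800 * (1 + 3 * ℓ) / ρ := by positivity
        calc (n : ℝ) * x0 = 800 * (1 + 3 * ℓ) / ρ * (ρ / (800 * (1 + 3 * ℓ)) * (n * x0)) := by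
              field_simp
          _ ≤ 800 * (1 + 3 * ℓ) / ρ * (2 * y0) := mul_le_mul_of_nonneg_left this h10.le
          _ = 1600 * (1 + 3 * ℓ) / ρ * y0 := by ring
      calc (n : ℝ) * x0 ≤ 1600 * (1 + 3 * ℓ) / ρ * y0 := k4
        _ ≤ 1600 * (1 + 3 * ℓ) / ρ * (3200 * θ / ρ) :=
            mul_le_mul_of_nonneg_left k3 (by positivity)
        _ = ε := by
            rw [hθ]; field_simp; norm_num

end Main

end P109.R476
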