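import Mathlib
import Vale.Agent.P109.R476.Accounting
import Vale.Agent.P109.H644.Green

/-!
# Glue: from the abstract accounting theorem to the consumer form of block S1
-/

namespace P109.R476

open MeasureTheory Function
open scoped ENNReal

theorem pairwiseDisjoint_image_of_preimage {Ω : Type*} {S : Ω → Ω} (hS : Injective S) {n : ℕ}
    {Z : Set Ω} (h : ∀ i < n, ∀ i' < n, i ≠ i' → Disjoint (S^[i] ⁻¹' Z) (S^[i'] ⁻¹' Z)) :
    (Finset.range n : Set ℕ).PairwiseDisjoint fun i => S^[i] '' Z := by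
  have key : ∀ i i', i < i' → i' < n → Disjoint (S^[i] '' Z) (S^[i'] '' Z) := by
    intro i i' hii hi'
    rw [Set.disjoint_left]
    rintro x ⟨a, ha, rfl⟩ ⟨b, hb, hab⟩
    have h1 : S^[i' - i] b = a := by
      apply hS.iterate i
      rw [← Function.iterate_add_apply]
      rw [← hab]
      congr 2
      omega
    have h2 := h 0 (by omega) (i' - i) (by omega) (by omega)
    rw [Set.disjoint_left] at h2
    exact h2 (a := b) (by simpa using hb) (by
      show S^[i' - i] b ∈ Z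
      rw [h1]; exact ha)
  intro i hi i' hi' hne
  have hi2 : i < n := by simpa using hi
  have hi2' : i' < n := by simpa using hi'
  rcases lt_or_gt_of_ne hne with h1 | h1
  · exact key i i' h1 hi2'
  · exact (key i' i h1 hi2).symm

universe u

/-- **Block S1, consumer form**, from the per-orbit algebra (`Sm`, `GoodAt`, h1-h6). -/
theorem accounting_of {E : Type*} [NormedAddCommGroup E] [NormedSpace ℝ E]
    {Ω : Type u} [MeasurableSpace Ω] (ν : Measure Ω)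
    [IsProbabilityMeasure ν] (S : Ω ≃ᵐ Ω) (hS : MeasurePreserving S ν ν)
    (Dm : Ω → E →L[ℝ] E)
    (C0 Lam C : ℝ) (hC0 : 0 ≤ C0) (hLam : 1 ≤ Lam)
    (hC : 5120000 * (C0 + 1) * (1 + 3 * Real.log Lam) ≤ C)
    (Sm : ℕ → Ω → ℝ) (GoodAt : ℕ → ℝ → Ω → Prop)
    (h1m : ∀ m, Measurable (Sm m)) (h1b : ∀ m, ∃ b, ∀ x, |Sm m x| ≤ b)
    (h1n : ∀ m x, 0 ≤ Sm m x) (h1one : ∀ x, Sm 1 x = 0)
    (h2 : ∀ m, 1 ≤ m → ∀ x, -C0 ≤ Sm m x + Sm m (S^[m] x) - Sm (2 * m) x)
    (h3 : ∀ m, 1 ≤ m → ∀ x a, Sm m x + Sm m (S^[m] x) - Sm (2 * m) x ≤ a →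
      GoodAt m (Real.exp (a + C0)) (S^[m] x))
    (h4 : ∀ m u K x, u ≤ m → GoodAt (2 * m) K (S^[u] x) →
      GoodAt m (K * (1 + u * Lam ^ (2 * u)) * Lam ^ u) x)
    (h5 : ∀ m K K' x, K ≤ K' → GoodAt m K x → GoodAt m K' x)
    (h6 : ∀ n K x, (∀ τ, 1 ≤ τ → τ ≤ n → GoodAt n K (S^[τ] x)) →
      Vale.Agent.P109.S3.Good n (fun t => Dm (S^[t] x)) K) :
    ∀ ρ ε : ℝ, 0 < ρ → ρ ≤ 1 → 0 < ε → ε ≤ 1 →
      ∃ Bad : Finset ℕ, (Bad.card : ℝ) ≤ C / (ε * ρ ^ 2) ∧
        ∀ j, (C / (ε * ρ)) ^ 2 ≤ 2 ^ j → j ∉ Bad →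
          ∃ G : Set Ω, MeasurableSet G ∧
            (∀ x ∈ G, Vale.Agent.P109.S3.Good (2 ^ (j + 1)) (fun t => Dm (S^[t] x))
              (Real.exp (ρ * 2 ^ (j + 1) / 200))) ∧
            ∀ Z : Set Ω, MeasurableSet Z →
              (∀ i < 2 ^ (j + 1), ∀ i' < 2 ^ (j + 1), i ≠ i' →
                Disjoint (S^[i] ⁻¹' Z) (S^[i'] ⁻¹' Z)) →
              (2 ^ (j + 1) : ℝ≥0∞) * ν (Z \ G) ≤ ENNReal.ofReal ε := by
  intro ρ ε hρ hρ1 hε hε1
  have hℓ : 0 ≤ Real.log Lam := Real.log_nonneg hLam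
  obtain ⟨Bad, hcard, hBad⟩ := accounting_abstract ν S hS C0 Lam hC0 hLam Sm GoodAt h1m h1b h1n
    h1one h2 h3 h4 h5 ρ ε hρ hρ1 hε
  have hC1 : 5120000 * (C0 + 1) ≤ C := by
    refine le_trans ?_ hC
    have : 5120000 * (C0 + 1) * 1 ≤ 5120000 * (C0 + 1) * (1 + 3 * Real.log Lam) :=
      mul_le_mul_of_nonneg_left (by linarith) (by positivity)
    linarith
  have hCpos : 1 ≤ C := by nlinarith
  refine ⟨Bad, hcard.trans ?_, fun j hj hjB => ?_⟩
  · apply div_le_div_of_nonneg_right _ (by positivity)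
    refine le_trans ?_ hC
    have : 0 ≤ 5120000 * (1 + 3 * Real.log Lam) := by positivity
    nlinarith
  · have hthr : 400 * C0 ≤ ρ * 2 ^ (j + 1) := by
      have e1 : C ≤ ρ * 2 ^ j := by
        have e2 : C / ρ ≤ C / (ε * ρ) := by
          apply div_le_div_of_nonneg_left (by linarith) (by positivity)
          nlinarith
        have e3 : 1 ≤ C / ρ := by
          rw [le_div_iff₀ hρ]; linarith
        have e4 : C / ρ ≤ 2 ^ j := by
          calc C / ρ ≤ (C / ρ) ^ 2 := by nlinarith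
            _ ≤ (C / (ε * ρ)) ^ 2 := by
                apply pow_le_pow_left₀ (by positivity) e2
            _ ≤ 2 ^ j := hj
        rw [div_le_iff₀ hρ] at e4
        linarith
      rw [pow_succ]
      nlinarith
    obtain ⟨G, hGm, hG, hZ⟩ := hBad j hjB hthr
    refine ⟨G, hGm, fun x hx => ?_, fun Z hZm hdisj => ?_⟩
    · exact h6 _ _ _ fun τ _ hτ => hG x hx τ hτ
    · have h7 := hZ Z hZm (pairwiseDisjoint_image_of_preimage S.injective hdisj)
      have h8 : ((2 : ℝ≥0∞) ^ (j + 1) * ν (Z \ G)).toReal ≤ ε := by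
        rw [ENNReal.toReal_mul]
        simpa [measureReal_def] using h7
      rw [← ENNReal.toReal_le_toReal (by finiteness) ENNReal.ofReal_ne_top,
        ENNReal.toReal_ofReal hε.le]
      exact h8

end P109.R476
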