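import Mathlib

/-!
# Positive operators: determinant bounds and the optimal splitting

Linear algebra core of Section 3.1/3.2 of the P109 blueprint.
-/

namespace P109.R476

open Module

variable {E : Type*} [NormedAddCommGroup E] [InnerProductSpace ℝ E] [FiniteDimensional ℝ E]

open scoped RealInnerProductSpace

/-- `T` is symmetric with quadratic form between `a` and `b`. -/
structure Btw (T : E →ₗ[ℝ] E) (a b : ℝ) : Prop where
  symm : T.IsSymmetric
  lower : ∀ v, a * ‖v‖ ^ 2 ≤ ⟪T v, v⟫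
  upper : ∀ v, ⟪T v, v⟫ ≤ b * ‖v‖ ^ 2

theorem Btw.eigenvalue_mem {T : E →ₗ[ℝ] E} {a b : ℝ} (h : Btw T a b) {n : ℕ}
    (hn : finrank ℝ E = n) (i : Fin n) :
    a ≤ h.symm.eigenvalues hn i ∧ h.symm.eigenvalues hn i ≤ b := by
  set e := h.symm.eigenvectorBasis hn with he
  have hT : T (e i) = (h.symm.eigenvalues hn i : ℝ) • e i :=
    h.symm.apply_eigenvectorBasis hn i
  have hnorm : ‖e i‖ = 1 := e.orthonormal.1 i
  have hin : ⟪T (e i), e i⟫ = h.symm.eigenvalues hn i := by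
    rw [hT, real_inner_smul_left, real_inner_self_eq_norm_sq, hnorm]; simp
  have h1 := h.lower (e i)
  have h2 := h.upper (e i)
  rw [hin, hnorm] at h1 h2
  simp only [one_pow, mul_one] at h1 h2
  exact ⟨h1, h2⟩

/-- Determinant bounds for an operator between `a` and `b`. -/
theorem Btw.det_mem {T : E →ₗ[ℝ] E} {a b : ℝ} (h : Btw T a b) (ha : 0 ≤ a) :
    a ^ finrank ℝ E ≤ LinearMap.det T ∧ LinearMap.det T ≤ b ^ finrank ℝ E := by
  have hdet := h.symm.det_eq_prod_eigenvalues (n := finrank ℝ E) rfl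
  rw [hdet]
  constructor
  · calc a ^ finrank ℝ E = ∏ _i : Fin (finrank ℝ E), a := by simp
      _ ≤ _ := by
        apply Finset.prod_le_prod
        · intros; exact ha
        · intro i _; exact (h.eigenvalue_mem rfl i).1
  · calc _ ≤ ∏ _i : Fin (finrank ℝ E), b := by
          apply Finset.prod_le_prod
          · intro i _; exact ha.trans (h.eigenvalue_mem rfl i).1
          · intro i _; exact (h.eigenvalue_mem rfl i).2
      _ = b ^ finrank ℝ E := by simp

/-- If `T ≤ Λ` and `det T ≥ δ` then `T ≥ δ / Λ ^ D`. -/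
theorem Btw.lower_of_det {T : E →ₗ[ℝ] E} {Λ δ : ℝ} (h : Btw T 0 Λ) (hΛ : 1 ≤ Λ)
    (hδ : δ ≤ LinearMap.det T) (v : E) :
    δ / Λ ^ finrank ℝ E * ‖v‖ ^ 2 ≤ ⟪T v, v⟫ := by
  classical
  set D := finrank ℝ E with hD
  have hdet : LinearMap.det T = ∏ i, (h.symm.eigenvalues hD.symm i) :=
    h.symm.det_eq_prod_eigenvalues (n := D) rfl
  set μ := h.symm.eigenvalues hD.symm with hμ
  set e := h.symm.eigenvectorBasis hD.symm with he
  have hμ0 : ∀ i, 0 ≤ μ i := fun i => (h.eigenvalue_mem hD.symm i).1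
  have hμ1 : ∀ i, μ i ≤ Λ := fun i => (h.eigenvalue_mem hD.symm i).2
  have hΛ0 : 0 < Λ := lt_of_lt_of_le one_pos hΛ
  have key : ∀ i, δ / Λ ^ D ≤ μ i := by
    intro i
    rw [div_le_iff₀ (pow_pos hΛ0 _)]
    calc δ ≤ ∏ j, μ j := hδ.trans_eq hdet
      _ = μ i * ∏ j ∈ Finset.univ.erase i, μ j := by
          rw [Finset.mul_prod_erase _ _ (Finset.mem_univ i)]
      _ ≤ μ i * ∏ j ∈ Finset.univ.erase i, Λ := by
          apply mul_le_mul_of_nonneg_left _ (hμ0 i)
          apply Finset.prod_le_prod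
          · intro j _; exact hμ0 j
          · intro j _; exact hμ1 j
      _ ≤ μ i * Λ ^ D := by
          apply mul_le_mul_of_nonneg_left _ (hμ0 i)
          rw [Finset.prod_const]
          apply pow_le_pow_right₀ hΛ
          simp
  have h1 : ⟪T v, v⟫ = ∑ i, μ i * (e.repr v i) ^ 2 := by
    rw [← e.sum_inner_mul_inner (T v) v]
    apply Finset.sum_congr rfl
    intro i _
    have h2 : ⟪T v, e i⟫ = μ i * e.repr v i := by
      have := h.symm.eigenvectorBasis_apply_self_apply hD.symm v i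
      rw [← he] at this
      rw [e.repr_apply_apply] at this
      rw [real_inner_comm]
      simpa using this
    rw [h2, ← e.repr_apply_apply]
    ring
  have h2 : ‖v‖ ^ 2 = ∑ i, (e.repr v i) ^ 2 := by
    rw [← e.sum_sq_norm_inner_right v]
    apply Finset.sum_congr rfl
    intro i _
    rw [e.repr_apply_apply, Real.norm_eq_abs, sq_abs]
  rw [h1, h2, Finset.mul_sum]
  apply Finset.sum_le_sum
  intro i _
  exact mul_le_mul_of_nonneg_right (key i) (sq_nonneg _)

/-- A symmetric operator bounded below by `a > 0` is invertible; its inverse is between `0` and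
`1 / a`. -/
theorem Btw.exists_inv {T : E →ₗ[ℝ] E} {a b : ℝ} (h : Btw T a b) (ha : 0 < a) :
    ∃ Ti : E →ₗ[ℝ] E, T ∘ₗ Ti = LinearMap.id ∧ Ti ∘ₗ T = LinearMap.id ∧ Btw Ti 0 (1 / a) ∧
      (∀ v, ‖Ti v‖ ≤ ‖v‖ / a) ∧ ∀ v, ⟪Ti v, v⟫ ≤ ‖v‖ ^ 2 / a := by
  have hinj : Function.Injective T := by
    rw [injective_iff_map_eq_zero]
    intro v hv
    have := h.lower v
    rw [hv, inner_zero_left] at this
    have h2 : ‖v‖ ^ 2 ≤ 0 := by
      by_contra hcon
      push Not at hcon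
      nlinarith
    have h3 : ‖v‖ = 0 := by
      have := sq_nonneg ‖v‖
      have h4 : ‖v‖ ^ 2 = 0 := le_antisymm h2 this
      exact pow_eq_zero_iff (two_ne_zero) |>.1 h4
    exact norm_eq_zero.1 h3
  let Te : E ≃ₗ[ℝ] E := LinearEquiv.ofInjectiveEndo T hinj
  have hTe : ∀ v, Te v = T v := fun v => rfl
  let Ti : E →ₗ[ℝ] E := Te.symm.toLinearMap
  have h1 : ∀ v, T (Ti v) = v := fun v => by
    rw [← hTe]; exact Te.apply_symm_apply v
  have h2 : ∀ v, Ti (T v) = v := fun v => by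
    rw [← hTe]; exact Te.symm_apply_apply v
  have hnn : ∀ v, ‖Ti v‖ ≤ ‖v‖ / a := by
    intro v
    have h3 := h.lower (Ti v)
    rw [h1] at h3
    have h4 : ⟪v, Ti v⟫ ≤ ‖v‖ * ‖Ti v‖ := real_inner_le_norm _ _
    rw [le_div_iff₀ ha]
    rcases eq_or_lt_of_le (norm_nonneg (Ti v)) with h5 | h5
    · rw [← h5]; simp
    · have h6 : a * ‖Ti v‖ ^ 2 ≤ ‖v‖ * ‖Ti v‖ := h3.trans h4
      have h7 : (‖Ti v‖ * a) * ‖Ti v‖ ≤ ‖v‖ * ‖Ti v‖ := by nlinarith
      exact le_of_mul_le_mul_right h7 h5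
  have hform : ∀ v, ⟪Ti v, v⟫ ≤ ‖v‖ ^ 2 / a := by
    intro v
    calc ⟪Ti v, v⟫ ≤ ‖Ti v‖ * ‖v‖ := real_inner_le_norm _ _
      _ ≤ ‖v‖ / a * ‖v‖ := mul_le_mul_of_nonneg_right (hnn v) (norm_nonneg _)
      _ = ‖v‖ ^ 2 / a := by ring
  refine ⟨Ti, LinearMap.ext h1, LinearMap.ext h2, ⟨?_, ?_, ?_⟩, hnn, hform⟩
  · intro x y
    calc ⟪Ti x, y⟫ = ⟪Ti x, T (Ti y)⟫ := by rw [h1]
      _ = ⟪T (Ti x), Ti y⟫ := (h.symm _ _).symm
      _ = ⟪x, Ti y⟫ := by rw [h1]
  · intro v
    rw [zero_mul]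
    have h3 := h.lower (Ti v)
    rw [h1] at h3
    rw [real_inner_comm]
    have : 0 ≤ a * ‖Ti v‖ ^ 2 := by positivity
    linarith
  · intro v
    rw [one_div, inv_mul_eq_div]
    exact hform v

/-- **Optimal splitting.** `P, R` symmetric, `≥ a > 0`. The operator `M = P⁻¹ + R⁻¹` satisfies
`det (P + R) = det P * det M * det R`; hence the upper bound on `det (P+R)`, and, if
`det (P + R) ≥ δ det P det R`, a linear splitting `v = (v - π v) + π v` with small energy. -/
theorem splitting {P R : E →ₗ[ℝ] E} {a b : ℝ} (hP : Btw P a b) (hR : Btw R a b) (ha : 0 < a)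
    (ha1 : a ≤ 1) :
    LinearMap.det (P + R) ≤ (2 / a) ^ finrank ℝ E * (LinearMap.det P * LinearMap.det R) ∧
    ∀ δ : ℝ, 0 < δ → δ * (LinearMap.det P * LinearMap.det R) ≤ LinearMap.det (P + R) →
      ∃ π : E →ₗ[ℝ] E, ∀ v,
        ⟪P (v - π v), v - π v⟫ + ⟪R (π v), π v⟫ ≤ (2 / a) ^ finrank ℝ E / δ * ‖v‖ ^ 2 := by
  obtain ⟨Pi, hP1, hP2, hPi, hPn, hPf⟩ := hP.exists_inv ha
  obtain ⟨Ri, hR1, hR2, hRi, hRn, hRf⟩ := hR.exists_inv ha
  set M : E →ₗ[ℝ] E := Pi + Ri with hM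
  have hMB : Btw M 0 (2 / a) := by
    refine ⟨hPi.symm.add hRi.symm, ?_, ?_⟩
    · intro v
      have h1 := hPi.lower v
      have h2 := hRi.lower v
      simp only [hM, LinearMap.add_apply, inner_add_left]
      linarith
    · intro v
      have h1 := hPf v
      have h2 := hRf v
      simp only [hM, LinearMap.add_apply, inner_add_left]
      calc ⟪Pi v, v⟫ + ⟪Ri v, v⟫ ≤ ‖v‖ ^ 2 / a + ‖v‖ ^ 2 / a := add_le_add h1 h2
        _ = 2 / a * ‖v‖ ^ 2 := by ring
  have h2a : 1 ≤ 2 / a := by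
    rw [le_div_iff₀ ha]; linarith
  have hprod : P ∘ₗ M ∘ₗ R = P + R := by
    ext v
    have e1 : P (Pi (R v)) = R v := by
      have := LinearMap.congr_fun hP1 (R v); simpa using this
    have e2 : Ri (R v) = v := by
      have := LinearMap.congr_fun hR2 v; simpa using this
    simp only [LinearMap.comp_apply, hM, LinearMap.add_apply, map_add, e1, e2]
    abel
  have hdet : LinearMap.det (P + R) = LinearMap.det P * LinearMap.det R * LinearMap.det M := by
    rw [← hprod, LinearMap.det_comp, LinearMap.det_comp]; ring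
  have hdP : 0 < LinearMap.det P := lt_of_lt_of_le (pow_pos ha _) (hP.det_mem ha.le).1
  have hdR : 0 < LinearMap.det R := lt_of_lt_of_le (pow_pos ha _) (hR.det_mem ha.le).1
  constructor
  · rw [hdet, mul_comm ((2 / a) ^ finrank ℝ E)]
    apply mul_le_mul_of_nonneg_left (hMB.det_mem le_rfl).2 (by positivity)
  · intro δ hδ hδ2
    rw [hdet] at hδ2
    have hδM : δ ≤ LinearMap.det M := by
      have h1 : δ * (LinearMap.det P * LinearMap.det R) ≤
          LinearMap.det M * (LinearMap.det P * LinearMap.det R) := by linarith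
      exact le_of_mul_le_mul_right h1 (by positivity)
    set μ0 := δ / (2 / a) ^ finrank ℝ E with hμ0
    have hμ0pos : 0 < μ0 := by positivity
    have hMB' : Btw M μ0 (2 / a) := by
      refine ⟨hMB.symm, ?_, hMB.upper⟩
      intro v
      exact hMB.lower_of_det h2a hδM v
    obtain ⟨Mi, hM1, hM2, hMi, hMn, hMf⟩ := hMB'.exists_inv hμ0pos
    refine ⟨Ri ∘ₗ Mi, fun v => ?_⟩
    set y := Mi v with hy
    have hMy : Pi y + Ri y = v := by
      have := LinearMap.congr_fun hM1 v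
      simpa [hM] using this
    have e0 : (Ri ∘ₗ Mi) v = Ri y := rfl
    have e1 : v - Ri y = Pi y := by
      conv_lhs => rw [← hMy]
      abel
    have e2 : P (Pi y) = y := by
      have := LinearMap.congr_fun hP1 y; simpa using this
    have e3 : R (Ri y) = y := by
      have := LinearMap.congr_fun hR1 y; simpa using this
    rw [e0, e1, e2, e3, ← inner_add_right, hMy]
    have h3 := hMf v
    rw [← hy] at h3
    calc ⟪y, v⟫ ≤ ‖v‖ ^ 2 / μ0 := h3
      _ = (2 / a) ^ finrank ℝ E / δ * ‖v‖ ^ 2 := by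
        rw [hμ0]; field_simp

end P109.R476
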