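import Mathlib
import Vale.Agent.P109.R476.Glue
import Vale.Agent.P109.C443.Meas
import Vale.Agent.P109.C443.Persist

/-!
# Block S1 (final form): cocycle accounting
-/

namespace P109.R476

open MeasureTheory Function Module
open scoped ENNReal
open Vale.Agent.P109.C443 Vale.Agent.P109

universe u

/-- the constant of the accounting theorem -/
noncomputable def accC (D : ℕ) (Λ : ℝ) : ℝ :=
  5120000 * (C0 D Λ + 1) * (1 + 3 * Real.log Λ)

theorem C0_nonneg (D : ℕ) {Λ : ℝ} (hΛ : 1 ≤ Λ) : 0 ≤ C0 D Λ := by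
  unfold C0
  have : 0 ≤ Real.log (Λ ^ 2 + 1) := Real.log_nonneg (by nlinarith)
  positivity

theorem accC_pos (D : ℕ) {Λ : ℝ} (hΛ : 1 ≤ Λ) : 0 < accC D Λ := by
  unfold accC
  have h1 := C0_nonneg D hΛ
  have h2 : 0 ≤ Real.log Λ := Real.log_nonneg hΛ
  positivity

/-- **Cocycle accounting.** -/
theorem accounting {E : Type*} [NormedAddCommGroup E] [InnerProductSpace ℝ E]
    [FiniteDimensional ℝ E] [MeasurableSpace E] [BorelSpace E]
    {Ω : Type u} [MeasurableSpace Ω] (ν : Measure Ω)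
    [IsProbabilityMeasure ν] (S : Ω ≃ᵐ Ω) (hS : MeasurePreserving S ν ν)
    (Dm : Ω → E →L[ℝ] E) (hD : ∀ v, Measurable fun x => Dm x v) {Λ : ℝ} (hb : CocBd Dm Λ)
    {C : ℝ} (hC : accC (finrank ℝ E) Λ ≤ C) :
    ∀ ρ ε : ℝ, 0 < ρ → ρ ≤ 1 → 0 < ε → ε ≤ 1 →
      ∃ Bad : Finset ℕ, (Bad.card : ℝ) ≤ C / (ε * ρ ^ 2) ∧
        ∀ j, (C / (ε * ρ)) ^ 2 ≤ 2 ^ j → j ∉ Bad →
          ∃ G : Set Ω, MeasurableSet G ∧
            (∀ x ∈ G, S3.Good (2 ^ (j + 1)) (fun t => Dm (S^[t] x))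
              (Real.exp (ρ * 2 ^ (j + 1) / 200))) ∧
            ∀ Z : Set Ω, MeasurableSet Z →
              (∀ i < 2 ^ (j + 1), ∀ i' < 2 ^ (j + 1), i ≠ i' →
                Disjoint (S^[i] ⁻¹' Z) (S^[i'] ⁻¹' Z)) →
              (2 ^ (j + 1) : ℝ≥0∞) * ν (Z \ G) ≤ ENNReal.ofReal ε := by
  have hΛ := hb.one_le
  set S' : Ω ≃ Ω := S.toEquiv with hS'
  have hSc : ∀ m x, S'^[m] x = S^[m] x := fun m x => rfl
  have hSs : ∀ m x, S'.symm^[m] (S^[m] x) = x := by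
    intro m x
    have hli : LeftInverse S'.symm S' := fun z => S'.symm_apply_apply z
    exact (hli.iterate m) x
  set Sm' : ℕ → Ω → ℝ := fun m x => if m = 0 then 0 else Sm Dm S m x with hSm'
  have hne : ∀ m, 1 ≤ m → ∀ x, Sm' m x = Sm Dm S m x := by
    intro m hm x
    have : m ≠ 0 := by omega
    simp [hSm', this]
  refine accounting_of ν S hS Dm (C0 (finrank ℝ E) Λ) Λ C (C0_nonneg _ hΛ) hΛ hC Sm'
    (fun m K x => 0 ≤ K ∧ GoodAt Dm S' m K x) ?_ ?_ ?_ ?_ ?_ ?_ ?_ ?_ ?_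
  · intro m
    rcases Nat.eq_zero_or_pos m with h0 | h0
    · subst h0
      simp [hSm']
    · have : Sm' m = Sm Dm S m := by
        funext x; exact hne m h0 x
      rw [this]
      exact measurable_Sm hD S.measurable m
  · intro m
    rcases Nat.eq_zero_or_pos m with h0 | h0
    · subst h0
      exact ⟨0, fun x => by simp [hSm']⟩
    · refine ⟨(1 / 2) * Real.log ((m * Λ ^ (2 * m)) ^ finrank ℝ E), fun x => ?_⟩
      rw [hne m h0 x, abs_of_nonneg (Sm_nonneg Dm S hb h0 x)]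
      exact Sm_le Dm S hb h0 x
  · intro m x
    rcases Nat.eq_zero_or_pos m with h0 | h0
    · subst h0
      simp [hSm']
    · rw [hne m h0 x]
      exact Sm_nonneg Dm S hb h0 x
  · intro x
    rw [hne 1 le_rfl x]
    exact Sm_one Dm S x
  · intro m hm x
    have := (overlap Dm S' hb hm (S^[m] x)).1
    rw [hSs] at this
    rw [hne m hm, hne m hm, hne (2 * m) (by omega)]
    exact this
  · intro m hm x a ha
    refine ⟨(Real.exp_pos _).le, ?_⟩
    have := (overlap Dm S' hb hm (S^[m] x)).2 a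
    rw [hSs] at this
    rw [hne m hm, hne m hm, hne (2 * m) (by omega)] at ha
    exact this ha
  · intro m w K x hw hg
    have hΛ0 : 0 ≤ Λ := zero_le_one.trans hΛ
    refine ⟨?_, GoodAt.persist hb hg.1 hw hg.2⟩
    have := hg.1
    positivity
  · intro m K K' x hKK hg
    exact ⟨hg.1.trans hKK, hg.2.mono hg.1 hKK⟩
  · intro n K x hg
    rcases Nat.eq_zero_or_pos n with h0 | h0
    · subst h0
      exact ⟨fun _ _ => 0, fun τ h1 h2 => by omega, fun τ h1 h2 => by omega⟩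
    · exact good_of_goodAt (S := S') (hg 1 le_rfl h0).1 fun τ h1 h2 => (hg τ h1 h2).2

/-- **Cocycle accounting, a.e. bounds.** -/
theorem accounting_ae {E : Type*} [NormedAddCommGroup E] [InnerProductSpace ℝ E]
    [FiniteDimensional ℝ E] [MeasurableSpace E] [BorelSpace E]
    {Ω : Type u} [MeasurableSpace Ω] (ν : Measure Ω)
    [IsProbabilityMeasure ν] (S : Ω ≃ᵐ Ω) (hS : MeasurePreserving S ν ν)
    (Dm : Ω → E →L[ℝ] E) (hD : ∀ v, Measurable fun x => Dm x v) {Λ : ℝ} (hΛ : 1 ≤ Λ)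
    (hb : ∀ᵐ x ∂ν, ∀ v, ‖Dm x v‖ ≤ Λ * ‖v‖ ∧ ‖v‖ ≤ Λ * ‖Dm x v‖)
    {C : ℝ} (hC : accC (finrank ℝ E) Λ ≤ C) :
    ∀ ρ ε : ℝ, 0 < ρ → ρ ≤ 1 → 0 < ε → ε ≤ 1 →
      ∃ Bad : Finset ℕ, (Bad.card : ℝ) ≤ C / (ε * ρ ^ 2) ∧
        ∀ j, (C / (ε * ρ)) ^ 2 ≤ 2 ^ j → j ∉ Bad →
          ∃ G : Set Ω, MeasurableSet G ∧
            (∀ x ∈ G, S3.Good (2 ^ (j + 1)) (fun t => Dm (S^[t] x))
              (Real.exp (ρ * 2 ^ (j + 1) / 200))) ∧
            ∀ Z : Set Ω, MeasurableSet Z →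
              (∀ i < 2 ^ (j + 1), ∀ i' < 2 ^ (j + 1), i ≠ i' →
                Disjoint (S^[i] ⁻¹' Z) (S^[i'] ⁻¹' Z)) →
              (2 ^ (j + 1) : ℝ≥0∞) * ν (Z \ G) ≤ ENNReal.ofReal ε := by
  classical
  obtain ⟨N, hNsub, hNm, hN0⟩ := exists_measurable_superset_of_null (ae_iff.1 hb)
  -- forward saturation
  set N' : Set Ω := ⋃ k : ℕ, S^[k] ⁻¹' N with hN'
  have hN'm : MeasurableSet N' :=
    MeasurableSet.iUnion fun k => (S.measurable.iterate k) hNm
  have hN'0 : ν N' = 0 := by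
    rw [hN', measure_iUnion_null_iff]
    intro k
    rw [(hS.iterate k).measure_preimage hNm.nullMeasurableSet, hN0]
  set Dm' : Ω → E →L[ℝ] E := fun x => if x ∈ N then ContinuousLinearMap.id ℝ E else Dm x
    with hDm'
  have hD' : ∀ v, Measurable fun x => Dm' x v := by
    intro v
    have : (fun x => Dm' x v) = fun x => if x ∈ N then v else Dm x v := by
      funext x
      by_cases hx : x ∈ N <;> simp [hDm', hx]
    rw [this]
    exact Measurable.ite hNm measurable_const (hD v)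
  have hb' : CocBd Dm' Λ := by
    refine ⟨hΛ, fun x v => ?_, fun x v => ?_⟩
    · by_cases hx : x ∈ N
      · simp only [hDm', hx, if_true, ContinuousLinearMap.id_apply]
        have := norm_nonneg v
        nlinarith
      · have h1 : ∀ v, ‖Dm x v‖ ≤ Λ * ‖v‖ ∧ ‖v‖ ≤ Λ * ‖Dm x v‖ := by
          by_contra hcon
          exact hx (hNsub hcon)
        simp only [hDm', hx, if_false]
        exact (h1 v).1
    · by_cases hx : x ∈ N
      · simp only [hDm', hx, if_true, ContinuousLinearMap.id_apply]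
        have := norm_nonneg v
        nlinarith
      · have h1 : ∀ v, ‖Dm x v‖ ≤ Λ * ‖v‖ ∧ ‖v‖ ≤ Λ * ‖Dm x v‖ := by
          by_contra hcon
          exact hx (hNsub hcon)
        simp only [hDm', hx, if_false]
        exact (h1 v).2
  intro ρ ε hρ hρ1 hε hε1
  obtain ⟨Bad, hcard, hBad⟩ := accounting ν S hS Dm' hD' hb' hC ρ ε hρ hρ1 hε hε1
  refine ⟨Bad, hcard, fun j hj hjB => ?_⟩
  obtain ⟨G, hGm, hG, hZ⟩ := hBad j hj hjB
  refine ⟨G \ N', hGm.diff hN'm, fun x hx => ?_, fun Z hZm hdisj => ?_⟩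
  · refine (hG x hx.1).congr fun t _ => ?_
    have hxt : S^[t] x ∉ N := fun hcon => hx.2 (Set.mem_iUnion.2 ⟨t, hcon⟩)
    simp [hDm', hxt]
  · have h1 : Z \ (G \ N') ⊆ (Z \ G) ∪ N' := by
      intro x hx
      by_cases hxN : x ∈ N'
      · exact Or.inr hxN
      · exact Or.inl ⟨hx.1, fun hxG => hx.2 ⟨hxG, hxN⟩⟩
    have h2 : ν (Z \ (G \ N')) ≤ ν (Z \ G) := by
      calc ν (Z \ (G \ N')) ≤ ν ((Z \ G) ∪ N') := measure_mono h1
        _ ≤ ν (Z \ G) + ν N' := measure_union_le _ _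
        _ = ν (Z \ G) := by rw [hN'0, add_zero]
    exact (mul_le_mul_right h2 _).trans (hZ Z hZm hdisj)

end P109.R476
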